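import Mathlib
import Vale.Agent.Lib.PCP.Defs

/-!
P342: basic definitions (graph of a product of label cover games, fields, analytic notions).
-/

namespace Vale.Agent.P342

open Vale.Agent.Lib.PCP Finset

/-! ### The graph -/

/-- a constraint of the game -/
abbrev Ed (r : ℕ) := ℕ × ℕ × (Fin r → Fin r)

variable {l r : ℕ}

/-- projection of a label tuple of level `S` to level `U`: blocks in `S \ U` are projected. -/
def proj (e : Fin l → Ed r) (S U : Finset (Fin l)) (u : Fin l → Fin r) : Fin l → Fin r :=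
  fun b => if b ∈ S ∧ b ∉ U then (e b).2.2 (u b) else u b

/-- the question tuple of level `U`: left questions in the blocks of `U`, right questions else. -/
def vert (e : Fin l → Ed r) (U : Finset (Fin l)) : Fin l → Bool × ℕ :=
  fun b => if b ∈ U then (true, (e b).1) else (false, (e b).2.1)

/-- vertices of the graph -/
abbrev Vx (l r : ℕ) := (Fin l → Bool × ℕ) × ((Fin l → Fin r) → Fin 3)

/-- adjacency of the graph -/
def Adj (G : PG ℕ ℕ (Fin r) (Fin r)) (v v' : Vx l r) : Prop :=
  ∃ e : Fin l → Ed r, (∀ b, e b ∈ G) ∧ ∃ U U' : Finset (Fin l),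
    v.1 = vert e U ∧ v'.1 = vert e U' ∧
    ∀ n : Fin l → Fin r, v.2 (proj e univ U n) ≠ v'.2 (proj e univ U' n)

/-! ### Weights of the types -/

/-- maximum of `t` outside `U` -/
def lo (t : Fin l → ℕ) (U : Finset (Fin l)) : ℕ := Uᶜ.sup t

open Classical in
/-- minimum of `t` on `U` (`m` if `U` is empty) -/
noncomputable def hi (m : ℕ) (t : Fin l → ℕ) (U : Finset (Fin l)) : ℕ :=
  if h : U.Nonempty then U.inf' h t else m

/-- weight of `U` -/
noncomputable def wt (m : ℕ) (t : Fin l → ℕ) (U : Finset (Fin l)) : ℕ := hi m t U - lo t U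

/-- coefficient of `U` (in units of `1 / m`) -/
noncomputable def cf (m : ℕ) (t : Fin l → ℕ) (U : Finset (Fin l)) : ℕ := min m (2 ^ l * wt m t U)

/-- support of a type -/
def supp (t : Fin l → ℕ) : Finset (Fin l) := univ.filter fun b => t b ≠ 0

/-- adjacent types -/
def Near (t t' : Fin l → ℕ) : Prop := ∀ b, t b ≤ t' b + 1 ∧ t' b ≤ t b + 1

/-- the types: points of the outer faces of the cube -/
def IsType (m : ℕ) (t : Fin l → ℕ) : Prop := (∀ b, t b ≤ m) ∧ ∃ b, t b = m

/-! ### Fields -/

/-- indices of the variables -/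
abbrev Ix (l r : ℕ) := {U : Finset (Fin l) // U.Nonempty} × (Fin l → Fin r)

/-- the field of type `t` with full set `U0`, in washed coordinates `ω`, as a function of the label
tuples `u` of level `supp t`; values are taken modulo `Q`. -/
noncomputable def fld (m Q : ℕ) (t : Fin l → ℕ) (U0 : Finset (Fin l)) (e : Fin l → Ed r)
    (ω : Ix l r → Fin Q) (u : Fin l → Fin r) : ℕ :=
  ∑ U : {U : Finset (Fin l) // U.Nonempty},
    if U.1 = U0 then (ω (U, proj e (supp t) U u)).val
    else cf m t U * (ω (U, proj e (supp t) U u)).val / m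

/-- washed coordinates -/
def wash (Q : ℕ) [NeZero Q] (U0 : Finset (Fin l)) (e : Fin l → Ed r)
    (θ : (Fin l → Fin r) → Fin Q) (ζ : Ix l r → Fin Q) : Ix l r → Fin Q :=
  fun i => if i.1.1 = U0 then θ (proj e i.1.1 ∅ i.2) + ζ i else ζ i

/-- the three arcs of the circle `ℤ / Q` -/
def arc (Q a : ℕ) : Fin 3 := Fin.ofNat 3 (3 * (a % Q) / Q)

/-- the point of the graph given by the field -/
noncomputable def pt (m Q : ℕ) (t : Fin l → ℕ) (U0 : Finset (Fin l)) (e : Fin l → Ed r)
    (ω : Ix l r → Fin Q) : Vx l r :=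
  (vert e (supp t), fun u => arc Q (fld m Q t U0 e ω u))

/-- distance on `Fin Q` (as an interval) -/
def dst {Q : ℕ} (a b : Fin Q) : ℕ := max (a.val - b.val) (b.val - a.val)

/-! ### Density of a colour given some coordinates -/

/-- colour `a` has conditional density at least `1 / c` given the coordinates of `x` in `J`. -/
def Dense {I A : Type} [Fintype I] [DecidableEq I] [Fintype A] [DecidableEq A] {c : ℕ}
    (F : (I → A) → Fin c) (J : Finset I) (a : Fin c) (x : I → A) : Prop :=
  (univ.filter fun y : I → A => ∀ i ∈ J, y i = x i).card ≤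
    c * (univ.filter fun y : I → A => (∀ i ∈ J, y i = x i) ∧ F y = a).card

/-- `x` is farther than `Q / D` from colour `a` in the maximum norm. -/
def Far {I : Type} {Q c : ℕ} (D : ℕ) (F : (I → Fin Q) → Fin c) (a : Fin c)
    (x : I → Fin Q) : Prop :=
  ∀ y, F y = a → ∃ i, Q < D * dst (x i) (y i)

end Vale.Agent.P342
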